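import Vale.Agent.P226.CertCover

/-!
# The Gaussian propeller inequality in every dimension and for every number of cells (P226)

The reduction to normalised, sorted, pairwise obtuse families of vectors is in
`Vale.Agent.P226.Assembly`; the width bound for those families is `Vale.Agent.P226.Cert.widthBound`.
-/

namespace Vale.Agent.Results.P226.Propeller

open MeasureTheory ProbabilityTheory

/-- Every finite partition of `ℝ^d`, up to Gaussian null sets, has sum of squared Gaussian first
moments at most `9 / (8π)`. -/
theorem result : ∀ (d k : ℕ) (A : Fin k → Set (EuclideanSpace ℝ (Fin d))),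
    (∀ i, MeasurableSet (A i)) →
    Pairwise (Function.onFun (AEDisjoint (stdGaussian (EuclideanSpace ℝ (Fin d)))) A) →
    (⋃ i, A i) =ᵐ[stdGaussian (EuclideanSpace ℝ (Fin d))] Set.univ →
    ∑ i, ‖∫ x in A i, x ∂(stdGaussian (EuclideanSpace ℝ (Fin d)))‖ ^ 2 ≤ 9 / (8 * Real.pi) :=
  Vale.Agent.P226.propeller_of_widthBound Vale.Agent.P226.Cert.widthBound

end Vale.Agent.Results.P226.Propeller
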